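import Vale.Agent.P277.R2.H339.Twist
import Vale.Agent.P277.R2.H339.GenMem
import Vale.Agent.P285.R5.H80.PbC

/-!
# P277: no flips on projective bundles over hyperbolic orbifolds, without pseudo-effectivity
-/

open scoped Manifold ContDiff Topology ENNReal
open MeasureTheory Filter

set_option linter.all false

noncomputable section

namespace Vale.Agent.P277.R2.H339

open Vale.Agent.P272.K Vale.Agent.P285.H281.FD Vale.Agent.P285.H766.PB
open Vale.Agent.P285.LK (IsSNCDivisor OrbifoldBrody)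
open Vale.Agent.P270.H766.GB (adM isLB_adM)

theorem alg (A U W R T : ℂ) (j : ℕ) (hA : A = U * W) (hT : T ≠ 0) :
    A ^ j * R = U ^ j * (R / T) * (W ^ j * T) := by
  rw [hA, mul_pow]
  field_simp

theorem g_self {n : ℕ} {X : Type} [TopologicalSpace X] [ChartedSpace (Cm n) X] {L : Bd X}
    (hL : IsLB n L) {i : L.ι} {x : X} (hi : x ∈ L.U i) : L.g i i x = 1 := by
  have h := hL.cocycle i i i x hi hi hi
  exact mul_left_cancel₀ (hL.ne_zero i i x hi hi) (by rw [h, mul_one])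

section
variable {n r : ℕ} {Y : Type} [TopologicalSpace Y] [T2Space Y] [CompactSpace Y] [ConnectedSpace Y]
    [ChartedSpace (Cm n) Y] [IsManifold 𝓘(ℂ, Cm n) ω Y]
    {X : Type} [TopologicalSpace X] [T2Space X] [CompactSpace X] [ConnectedSpace X]
    [ChartedSpace (Cm (n + r)) X]
    [IsManifold 𝓘(ℂ, Cm (n + r)) ω X] {L : Fin (r + 1) → Bd Y} {N : Bd Y} {π : X → Y} {H : Bd X}
    {t : (j : Fin (r + 1)) → H.ι → (L j).ι → X → ℂ} {m e : ℕ} {s : H.ι × N.ι → X → ℂ}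
    {k : ℕ} {S : Fin k → Chart n Y → Cm n → ℂ} {K : Fin k → ℕ}
    {φ : Fin k → Chart n Y → Cm n → ℝ}
    {c : Fin k → Chart n Y → Cm n → Matrix (Fin n) (Fin n) ℂ} {μ : Fin k → ℕ}
    {w : Chart n Y → Cm n → Matrix (Fin n) (Fin n) ℂ}
    {w' : Chart (n + r) X → Cm (n + r) → Matrix (Fin (n + r)) (Fin (n + r)) ℂ}

/-- if `aH + π^*P`, `a ≥ 1`, is generated by sections, `K_X + B + q(aH + π^*P) + M` is semiample for
`q = m(r+1)` -/
theorem sa_twist (hgF : GenFin) (hchart : RowChart) (hn : 1 ≤ n) (hr : 1 ≤ r) (hw : IsKahler w)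
    (hS : IsSNCDivisor S φ c)
    (hμ : ∀ i, μ i ≠ 1) (hZ : OrbifoldBrody n Y S μ) (hw' : IsHermitian w')
    (hL : ∀ j, IsLB n (L j)) (hN : IsLB n N)
    (hH : IsLB (n + r) H) (hPB : IsPB n r L π H t) (hm : 1 ≤ m)
    (hs : IsSec (n + r) ((H.pow e).mul (pull π N)) s)
    (h0 : ∃ x, NZ ((H.pow e).mul (pull π N)) s x)
    (hk : Lc (n + r) m ((H.pow e).mul (pull π N)) s)
    (hK : ∀ i, (m : ℝ) * (1 - (μ i : ℝ)⁻¹) ≤ K i)
    (hD : Vale.Agent.P285.R5.H80.PB.PullGe n (n + r) π ((H.pow e).mul (pull π N)) s S K)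
    {N' : Bd Y} {f : ℕ} (hN' : IsLB n N') (hM : Nef w' ((H.pow f).mul (pull π N')))
    {a : ℕ} (ha : 1 ≤ a) {P : Bd Y} (hP : IsLB n P)
    (hgen : ∀ x, ∃ T, IsSec (n + r) ((H.pow a).mul (pull π P)) T ∧
      NZ ((H.pow a).mul (pull π P)) T x) :
    Semiample (n + r) (adM n r π H (N.mul (P.pow (m * (r + 1)))) N' m (e + a * (m * (r + 1))) f) := by
  classical
  set q : ℕ := m * (r + 1) with hq
  have hA : IsLB (n + r) ((H.pow a).mul (pull π P)) := isLB_mul (isLB_pow hH a) (isLB_pull hPB hP)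
  have hPq : IsLB n (P.pow q) := isLB_pow hP q
  have hNP : IsLB n (N.mul (P.pow q)) := isLB_mul hN hPq
  have hA' : IsLB (n + r) ((H.pow (a * q)).mul (pull π (P.pow q))) :=
    isLB_mul (isLB_pow hH _) (isLB_pull hPB hPq)
  have hLN : IsLB (n + r) ((H.pow e).mul (pull π N)) :=
    isLB_mul (isLB_pow hH e) (isLB_pull hPB hN)
  have hD' : IsLB (n + r) ((H.pow (e + a * q)).mul (pull π (N.mul (P.pow q)))) :=
    isLB_mul (isLB_pow hH _) (isLB_pull hPB hNP)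
  -- finitely many sections
  choose T hT hTx using hgen
  have hTc : ∀ x, IsSec (n + r) ((H.pow (a * q)).mul (pull π (P.pow q)))
      (fun j z => T x j z ^ q) := by
    intro x
    refine ⟨fun i f z hf hz => ((hT x).holo i f z hf hz).pow q, fun i j z hi hj => ?_⟩
    show T x i z ^ q = (H.g i.1 j.1 z ^ (a * q) * P.g i.2 j.2 (π z) ^ q) * T x j z ^ q
    have h1 : T x i z = (H.g i.1 j.1 z ^ a * P.g i.2 j.2 (π z)) * T x j z :=
      (hT x).change i j z hi hj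
    rw [h1, mul_pow, mul_pow, ← pow_mul]
  let W : X → Set X := fun x => {z | NZ ((H.pow a).mul (pull π P)) (T x) z}
  have hW : ∀ x, W x ∈ 𝓝 x := by
    intro x
    obtain ⟨i, hi⟩ := hA.cover x
    have hex : At (chartAt (Cm (n + r)) x) x := ⟨chart_mem_atlas _ _, mem_chart_source _ _⟩
    set ex := chartAt (Cm (n + r)) x
    have h1 : ContinuousAt (fun z => T x i (ex.symm z)) (ex x) :=
      ((hT x).holo i ex x hex hi).continuousAt
    have h2 : ContinuousAt (fun y => T x i (ex.symm (ex y))) x :=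
      ContinuousAt.comp (f := ex) (g := fun z => T x i (ex.symm z)) h1 (ex.continuousAt hex.2)
    have h3 : ContinuousAt (T x i) x := by
      refine h2.congr ?_
      filter_upwards [ex.open_source.mem_nhds hex.2] with y hy
      rw [ex.left_inv hy]
    filter_upwards [h3.eventually_ne (hTx x i hi), (hA.isOpen i).mem_nhds hi] with y hy hyi
    exact (nz_iff hA (hT x) hyi).2 hy
  obtain ⟨F, -, hF⟩ := isCompact_univ.elim_nhds_subcover W fun x _ => hW x
  have hTl : ∀ x, ∃ l : Fin F.card, NZ ((H.pow (a * q)).mul (pull π (P.pow q)))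
      (fun j z => T (F.equivFin.symm l).1 j z ^ q) x := by
    intro x
    obtain ⟨y, hyF, hxy⟩ : ∃ y ∈ F, x ∈ W y := by
      have := hF (Set.mem_univ x)
      simpa using this
    refine ⟨F.equivFin ⟨y, hyF⟩, fun j hj => ?_⟩
    simp only [Equiv.symm_apply_apply]
    exact pow_ne_zero _ (hxy j hj)
  have hv : ∀ l : Fin F.card, IsSec (n + r) ((H.pow (e + a * q)).mul (pull π (N.mul (P.pow q))))
      (fun j x => s (j.1, j.2.1) x * T (F.equivFin.symm l).1 (j.1, j.2.2) x ^ q) := by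
    intro l
    refine ⟨fun i f z hf hz => ?_, fun i j z hi hj => ?_⟩
    · exact (hs.holo (i.1, i.2.1) f z hf ⟨hz.1, hz.2.1⟩).mul
        (((hT _).holo (i.1, i.2.2) f z hf ⟨hz.1, hz.2.2⟩).pow q)
    · have h1 : s (i.1, i.2.1) z =
          (H.g i.1 j.1 z ^ e * N.g i.2.1 j.2.1 (π z)) * s (j.1, j.2.1) z :=
        hs.change (i.1, i.2.1) (j.1, j.2.1) z ⟨hi.1, hi.2.1⟩ ⟨hj.1, hj.2.1⟩
      have h2 : T (F.equivFin.symm l).1 (i.1, i.2.2) z ^ q =
          (H.g i.1 j.1 z ^ (a * q) * P.g i.2.2 j.2.2 (π z) ^ q) *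
            T (F.equivFin.symm l).1 (j.1, j.2.2) z ^ q :=
        (hTc (F.equivFin.symm l).1).change (i.1, i.2.2) (j.1, j.2.2) z ⟨hi.1, hi.2.2⟩
          ⟨hj.1, hj.2.2⟩
      show s (i.1, i.2.1) z * T (F.equivFin.symm l).1 (i.1, i.2.2) z ^ q =
        (H.g i.1 j.1 z ^ (e + a * q) *
          (N.g i.2.1 j.2.1 (π z) * P.g i.2.2 j.2.2 (π z) ^ q)) *
          (s (j.1, j.2.1) z * T (F.equivFin.symm l).1 (j.1, j.2.2) z ^ q)
      rw [h1, h2, pow_add]
      ring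
  haveI : Nonempty X := inferInstance
  obtain ⟨y, hy0, hyk⟩ := exists_general (n := n + r) hgF hchart hm hLN hA' hD' hs h0 hk
    (T := fun l j z => T (F.equivFin.symm l).1 j z ^ q) (fun l => hTc _) hTl
    (fun j => (j.1, j.2.1)) (fun j => (j.1, j.2.2)) (fun j x hx => ⟨hx.1, hx.2.1⟩)
    (fun j x hx => ⟨hx.1, hx.2.2⟩) hv
  have hsy := sum_sec hv y
  have hdiv : Vale.Agent.P285.R5.H80.PB.PullGe n (n + r) π
      ((H.pow (e + a * q)).mul (pull π (N.mul (P.pow q))))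
      (fun j x => ∑ l, y l * (s (j.1, j.2.1) x * T (F.equivFin.symm l).1 (j.1, j.2.2) x ^ q))
      S K := by
    intro j ex ey x hex hey hx
    obtain ⟨g, hg, hgev⟩ := hD ((j.1, j.2.1) : H.ι × N.ι) ex ey x hex hey ⟨hx.1, hx.2.1⟩
    refine ⟨fun z => g z * ∑ l, y l * T (F.equivFin.symm l).1 (j.1, j.2.2) (ex.symm z) ^ q,
      ?_, ?_⟩
    · refine hg.mul (Finset.analyticAt_fun_sum _ fun l _ => analyticAt_const.mul ?_)
      exact (((hT (F.equivFin.symm l).1).holo (j.1, j.2.2) ex x hex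
        ⟨hx.1, hx.2.2⟩).analyticAt).pow q
    · filter_upwards [hgev] with z hz
      have hz' : s ((j.1, j.2.1) : H.ι × N.ι) (ex.symm z) =
          g z * ∏ i, S i ey (ey (π (ex.symm z))) ^ K i := hz
      show ∑ l, y l * (s ((j.1, j.2.1) : H.ι × N.ι) (ex.symm z) *
        T (F.equivFin.symm l).1 (j.1, j.2.2) (ex.symm z) ^ q) = _
      rw [hz', Finset.mul_sum, Finset.sum_mul]
      refine Finset.sum_congr rfl fun l _ => ?_
      ring
  have he : m * (r + 1) ≤ e + a * q := by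
    have : q ≤ a * q := Nat.le_mul_of_pos_left q ha
    omega
  exact (Vale.Agent.P285.R5.H80.PB.p270_bundle hn hr hw hS hμ hZ hw' hL hNP hH hPB hm he hsy hy0
    hyk hK hdiv hN' hM).2.1

/-- **No flips, D not pseudo-effective included.** -/
theorem eq_of_bundle (hgF : GenFin) (hchart : RowChart) (hn : 1 ≤ n) (hr : 1 ≤ r)
    (hw : IsKahler w) (hS : IsSNCDivisor S φ c)
    (hμ : ∀ i, μ i ≠ 1) (hZ : OrbifoldBrody n Y S μ) (hw' : IsHermitian w')
    (hL : ∀ j, IsLB n (L j)) (hN : IsLB n N)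
    (hH : IsLB (n + r) H) (hPB : IsPB n r L π H t) (hm : 1 ≤ m)
    (hs : IsSec (n + r) ((H.pow e).mul (pull π N)) s)
    (h0 : ∃ x, NZ ((H.pow e).mul (pull π N)) s x)
    (hk : Lc (n + r) m ((H.pow e).mul (pull π N)) s)
    (hK : ∀ i, (m : ℝ) * (1 - (μ i : ℝ)⁻¹) ≤ K i)
    (hD : Vale.Agent.P285.R5.H80.PB.PullGe n (n + r) π ((H.pow e).mul (pull π N)) s S K)
    {N' : Bd Y} {f : ℕ} (hN' : IsLB n N') (hM : Nef w' ((H.pow f).mul (pull π N')))
    {a : ℕ} (ha : 1 ≤ a) {P : Bd Y} (hP : IsLB n P)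
    (hgen : ∀ x, ∃ T, IsSec (n + r) ((H.pow a).mul (pull π P)) T ∧
      NZ ((H.pow a).mul (pull π P)) T x)
    {Z : Type} [TopologicalSpace Z] {g : X → Z}
    (hpb : PulledBack (n + r) ((H.pow a).mul (pull π P)) g)
    (hf : IsContraction (n + r) (triv X) g)
    (hneg : NegativeOn (n + r) (triv X) (adM n r π H N N' m e f)
      (trivLift (adM n r π H N N' m e f)) g) {x y : X} (hxy : g x = g y) : y = x := by
  have hsa := sa_twist hgF hchart hn hr hw hS hμ hZ hw' hL hN hH hPB hm hs h0 hk hK hD hN' hM ha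
    hP hgen
  set q : ℕ := m * (r + 1) with hq
  have hLB : IsLB (n + r) (adM n r π H N N' m e f) := isLB_adM hPB hH hN hN'
  have hPpull : IsLB (n + r) (pull π P) := isLB_pull hPB hP
  have hcan : IsLB (n + r) (Bd.can (n + r) X) := isLB_can
  refine eq_of_locGen hLB (fun p => ?_) hf hneg hxy
  obtain ⟨V, hV, hpV, τ, hτ, hτ0⟩ := hpb (g p)
  obtain ⟨j, hj, hgenj⟩ := hsa
  obtain ⟨R, hR, hRp⟩ := hgenj p
  choose b hb using hPpull.cover
  have hWo : IsOpen (g ⁻¹' V) := hV.preimage hf.continuous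
  -- index of the big bundle
  let ι' : (adM n r π H N N' m e f).ι → P.ι →
      (adM n r π H (N.mul (P.pow q)) N' m (e + a * q) f).ι :=
    fun i p => (i.1, ((i.2.1.1, (i.2.1.2, p)), i.2.2))
  have hU : ∀ i p x, x ∈ (adM n r π H N N' m e f).U i → x ∈ (pull π P).U p →
      x ∈ (adM n r π H (N.mul (P.pow q)) N' m (e + a * q) f).U (ι' i p) :=
    fun i p x h1 h2 => ⟨h1.1, ⟨⟨h1.2.1.1, ⟨h1.2.1.2, h2⟩⟩, h1.2.2⟩⟩
  have hUA : ∀ (i : (adM n r π H N N' m e f).ι) (p : P.ι) x,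
      x ∈ (adM n r π H N N' m e f).U i → x ∈ (pull π P).U p →
      x ∈ ((H.pow a).mul (pull π P)).U (i.2.1.1, p) := fun i p x h1 h2 => ⟨h1.2.1.1, h2⟩
  -- change of frames for the quotient
  have hch : ∀ (i i' : (adM n r π H N N' m e f).ι) (p p' : P.ι) x,
      x ∈ (adM n r π H N N' m e f).U i → x ∈ (adM n r π H N N' m e f).U i' →
      x ∈ (pull π P).U p → x ∈ (pull π P).U p' → g x ∈ V →
      R (ι' i p) x / τ (i.2.1.1, p) x ^ (q * j) = (adM n r π H N N' m e f).g i i' x ^ j *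
        (R (ι' i' p') x / τ (i'.2.1.1, p') x ^ (q * j)) := by
    intro i i' p p' x h1 h2 h3 h4 h5
    have e1 : R (ι' i p) x = (((Bd.can (n + r) X).g i.1 i'.1 x ^ m *
        ((H.g i.2.1.1 i'.2.1.1 x ^ (e + a * q) *
          (N.g i.2.1.2 i'.2.1.2 (π x) * P.g p p' (π x) ^ q)) *
        (H.g i.2.2.1 i'.2.2.1 x ^ f * N'.g i.2.2.2 i'.2.2.2 (π x)) ^ m)) ^ j) *
          R (ι' i' p') x := hR.change (ι' i p) (ι' i' p') x (hU i p x h1 h3) (hU i' p' x h2 h4)
    have e2 : τ (i.2.1.1, p) x = (H.g i.2.1.1 i'.2.1.1 x ^ a * P.g p p' (π x)) ^ 1 *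
        τ (i'.2.1.1, p') x :=
      hτ.change (i.2.1.1, p) (i'.2.1.1, p') x (hUA i p x h1 h3) (hUA i' p' x h2 h4) h5
    have e3 : (adM n r π H N N' m e f).g i i' x = (Bd.can (n + r) X).g i.1 i'.1 x ^ m *
        ((H.g i.2.1.1 i'.2.1.1 x ^ e * N.g i.2.1.2 i'.2.1.2 (π x)) *
        (H.g i.2.2.1 i'.2.2.1 x ^ f * N'.g i.2.2.2 i'.2.2.2 (π x)) ^ m) := rfl
    have hH0 : H.g i.2.1.1 i'.2.1.1 x ≠ 0 := hH.ne_zero _ _ x h1.2.1.1 h2.2.1.1
    have hP0 : P.g p p' (π x) ≠ 0 := hPpull.ne_zero p p' x h3 h4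
    have hτ1 := hτ0 (i'.2.1.1, p') x (hUA i' p' x h2 h4) h5
    rw [e1, e2, e3, pow_one]
    rw [div_eq_iff (pow_ne_zero _ (mul_ne_zero (mul_ne_zero (pow_ne_zero _ hH0) hP0) hτ1))]
    have e4 : ((H.g i.2.1.1 i'.2.1.1 x ^ a * P.g p p' (π x)) * τ (i'.2.1.1, p') x) ^ (q * j) =
        (H.g i.2.1.1 i'.2.1.1 x ^ (a * q) * P.g p p' (π x) ^ q) ^ j *
          τ (i'.2.1.1, p') x ^ (q * j) := by
      rw [mul_pow, mul_pow, mul_pow, ← pow_mul, ← pow_mul, ← pow_mul, mul_assoc a q j]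
    rw [e4, pow_add]
    exact alg _ _ _ _ _ j (by ring) (pow_ne_zero _ hτ1)
  refine ⟨V, hV, hpV, j, hj, fun i x => R (ι' i (b x)) x / τ (i.2.1.1, b x) x ^ (q * j),
    ⟨?_, ?_⟩, ?_⟩
  · intro i ex x hep hi hqV
    have hsym : ContinuousAt ex.symm (ex x) := ex.continuousAt_symm (ex.map_source hep.2)
    have hqq : ex.symm (ex x) = x := ex.left_inv hep.2
    have hev : (fun z => R (ι' i (b (ex.symm z))) (ex.symm z) /
        τ (i.2.1.1, b (ex.symm z)) (ex.symm z) ^ (q * j)) =ᶠ[𝓝 (ex x)]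
        fun z => R (ι' i (b x)) (ex.symm z) / τ (i.2.1.1, b x) (ex.symm z) ^ (q * j) := by
      have hn : ((adM n r π H N N' m e f).U i ∩ (pull π P).U (b x)) ∩ g ⁻¹' V ∈
          𝓝 (ex.symm (ex x)) := by
        rw [hqq]
        exact (((hLB.isOpen _).inter (hPpull.isOpen _)).inter hWo).mem_nhds
          ⟨⟨hi, hb x⟩, hqV⟩
      filter_upwards [hsym hn] with z hz
      have h1 := hch i i (b (ex.symm z)) (b x) (ex.symm z) hz.1.1 hz.1.1 (hb _) hz.1.2 hz.2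
      rw [g_self hLB hz.1.1, one_pow, one_mul] at h1
      exact h1
    refine ContDiffAt.congr_of_eventuallyEq ?_ hev
    have a1 := hR.holo (ι' i (b x)) ex x hep (hU i (b x) x hi (hb x))
    have a2 := hτ.holo (i.2.1.1, b x) ex x hep (hUA i (b x) x hi (hb x)) hqV
    refine a1.div (a2.pow _) ?_
    rw [hqq]
    exact pow_ne_zero _ (hτ0 _ _ (hUA i (b x) x hi (hb x)) hqV)
  · intro i i' x h1 h2 h3
    exact hch i i' (b x) (b x) x h1 h2 (hb x) (hb x) h3
  · intro i hi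
    exact div_ne_zero (hRp (ι' i (b p)) (hU i (b p) p hi (hb p)))
      (pow_ne_zero _ (hτ0 _ _ (hUA i (b p) p hi (hb p)) hpV))

end

end Vale.Agent.P277.R2.H339
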