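import Vale.Agent.P277.R2.H339.Defs

/-! # P277: contractions `X → Z` and line bundles pulled back from `Z` -/

open scoped Manifold ContDiff

noncomputable section

namespace Vale.Agent.P277.R2.H339

open Vale.Agent.P272.K Vale.Agent.P285.H281.FD

/-- the trivial action of the trivial group -/
def triv (X : Type) : Unit → X → X := fun _ x => x

/-- the trivial lift of the trivial action to `L` -/
def trivLift {X : Type} (L : Bd X) : Unit → L.ι → L.ι → X → ℂ := fun _ i j x => L.g i j x

section
variable {X Z : Type} [TopologicalSpace X] [TopologicalSpace Z]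

/-- `s` is a holomorphic section of the power `kL` over the open set `W`. -/
structure SecOn (n : ℕ) [ChartedSpace (Cm n) X] (L : Bd X) (k : ℕ) (W : Set X)
    (s : L.ι → X → ℂ) : Prop where
  holo : ∀ i (e : Chart n X) x, At e x → x ∈ L.U i → x ∈ W →
    ContDiffAt ℂ ω (fun z => s i (e.symm z)) (e x)
  change : ∀ i j x, x ∈ L.U i → x ∈ L.U j → x ∈ W → s i x = L.g i j x ^ k * s j x

/-- `A` is pulled back from `Z` by `f : X → Z`: it is trivial over the preimages of small open
subsets of `Z`. -/
def PulledBack (n : ℕ) [ChartedSpace (Cm n) X] (A : Bd X) (f : X → Z) : Prop :=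
  ∀ z, ∃ V : Set Z, IsOpen V ∧ z ∈ V ∧ ∃ τ : A.ι → X → ℂ, SecOn n A 1 (f ⁻¹' V) τ ∧
    ∀ i x, x ∈ A.U i → f x ∈ V → τ i x ≠ 0

end

end Vale.Agent.P277.R2.H339
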