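import Vale.Agent.P277.R2.H339.Defs
import Mathlib.Topology.Homeomorph.Lemmas

/-!
# P277: a semiample divisor admits no flips

If a multiple of `L` is generated by its invariant sections, products of sections of `kL` with
sections of `-kL` over the preimage of an open set of `Z` are holomorphic functions, so they are
constant on the fibres of the contraction; hence the fibres are points.
-/

open scoped Manifold ContDiff
open Filter Topology

noncomputable section

namespace Vale.Agent.P277.R2.H339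

open Vale.Agent.P272.K Vale.Agent.P285.H281.FD

section
variable {X Z G : Type} [TopologicalSpace X] [TopologicalSpace Z] {n : ℕ} [ChartedSpace (Cm n) X]

theorem lin_ne_zero [Group G] {a : G → X → X} {L : Bd X} {t : G → L.ι → L.ι → X → ℂ}
    (hL : IsLB n L) (ha : IsAct n a) (ht : IsLin n a L t) {γ : G} {i j : L.ι} {x : X}
    (hi : x ∈ L.U i) (hj : a γ x ∈ L.U j) : t γ i j x ≠ 0 := by
  have h0 : a γ⁻¹ (a γ x) = x := by rw [← ha.mul, inv_mul_cancel, ha.one]
  have h1 : a 1 x ∈ L.U i := by rw [ha.one]; exact hi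
  have h2 := ht.mul γ γ⁻¹ i j i x hi hj (by rw [h0]; exact hi)
  rw [inv_mul_cancel, ht.one i i x hi h1] at h2
  exact left_ne_zero_of_mul (h2 ▸ hL.ne_zero i i x hi hi)

theorem orbit_of_eqSemiample [Group G] [Finite G] {a : G → X → X} {L : Bd X}
    {τ : G → L.ι → L.ι → X → ℂ} (hL : IsLB n L) (hs : EqSemiample n L) (ha : IsAct n a)
    (hτ : IsLin n a L τ) {f : X → Z} (hf : IsContraction n a f) (hneg : NegativeOn n a L τ f)
    {x y : X} (hxy : f x = f y) : ∃ γ, y = a γ x := by
  obtain ⟨V, hV, hzV, k, hk, N, s, hsec, hnz, hsep⟩ := hneg (f x)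
  obtain ⟨k', hk', hgen⟩ := hs G a τ ha hτ
  obtain ⟨t, ht, htinv, htx⟩ := hgen x
  obtain ⟨i, hi⟩ := hL.cover x
  obtain ⟨i', hi'⟩ := hL.cover y
  obtain ⟨j0, hj0⟩ := hnz i x hi hzV
  choose c hc using hL.cover
  set F : Fin (N + 1) → L.ι → X → ℂ := fun l i p =>
    t i p ^ k * (s j0 i p ^ (k' - 1) * s l i p) with hF
  have hyV : f y ∈ V := by rw [← hxy]; exact hzV
  -- the computation with a factor `g`
  have hcomp : ∀ (g t1 t2 u1 u2 v1 v2 : ℂ), g ≠ 0 → t1 = g ^ k' * t2 → u1 = (g ^ k)⁻¹ * u2 →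
      v1 = (g ^ k)⁻¹ * v2 → t1 ^ k * (u1 ^ (k' - 1) * v1) = t2 ^ k * (u2 ^ (k' - 1) * v2) := by
    intro g t1 t2 u1 u2 v1 v2 hg e1 e2 e3
    have hg' : (g ^ k') ^ k * (((g ^ k)⁻¹) ^ (k' - 1) * (g ^ k)⁻¹) = 1 := by
      rw [← pow_succ, Nat.sub_add_cancel hk', inv_pow, ← pow_mul, ← pow_mul, mul_comm k k']
      exact mul_inv_cancel₀ (pow_ne_zero _ hg)
    rw [e1, e2, e3, mul_pow, mul_pow]
    calc (g ^ k') ^ k * t2 ^ k * (((g ^ k)⁻¹) ^ (k' - 1) * u2 ^ (k' - 1) * ((g ^ k)⁻¹ * v2))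
        = ((g ^ k') ^ k * (((g ^ k)⁻¹) ^ (k' - 1) * (g ^ k)⁻¹)) *
          (t2 ^ k * (u2 ^ (k' - 1) * v2)) := by ring
      _ = _ := by rw [hg', one_mul]
  -- independence of the frame
  have hind : ∀ l i j p, p ∈ L.U i → p ∈ L.U j → f p ∈ V → F l i p = F l j p :=
    fun l i j p h1 h2 h3 => hcomp (L.g i j p) _ _ _ _ _ _ (hL.ne_zero i j p h1 h2)
      (ht.change i j p h1 h2) ((hsec j0).change i j p h1 h2 h3) ((hsec l).change i j p h1 h2 h3)
  have hWo : IsOpen (f ⁻¹' V) := hV.preimage hf.continuous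
  have hconst : ∀ l, F l i x = F l i' y := by
    intro l
    have h1 : HolOn n (f ⁻¹' V) fun p => F l (c p) p := by
      intro e p hep hpV
      have hsym : ContinuousAt e.symm (e p) := e.continuousAt_symm (e.map_source hep.2)
      have hpp : e.symm (e p) = p := e.left_inv hep.2
      have hev : (fun z => F l (c (e.symm z)) (e.symm z)) =ᶠ[𝓝 (e p)]
          fun z => F l (c p) (e.symm z) := by
        have hn : L.U (c p) ∩ f ⁻¹' V ∈ 𝓝 (e.symm (e p)) := by
          rw [hpp]
          exact ((hL.isOpen _).inter hWo).mem_nhds ⟨hc p, hpV⟩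
        filter_upwards [hsym hn] with z hz
        exact hind l _ _ _ (hc _) hz.1 hz.2
      refine ContDiffAt.congr_of_eventuallyEq ?_ hev
      have a1 := ht.holo (c p) e p hep (hc p)
      have a2 := (hsec j0).holo (c p) e p hep (hc p) hpV
      have a3 := (hsec l).holo (c p) e p hep (hc p) hpV
      exact (a1.pow k).mul ((a2.pow (k' - 1)).mul a3)
    have h1' : ∀ γ p, f p ∈ V → F l (c (a γ p)) (a γ p) = F l (c p) p := by
      intro γ p hp
      exact (hcomp (τ γ (c p) (c (a γ p)) p) _ _ _ _ _ _ (lin_ne_zero hL ha hτ (hc p) (hc _))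
        (htinv γ (c p) (c (a γ p)) p (hc p) (hc _))
        ((hsec j0).inv γ (c p) (c (a γ p)) p (hc p) (hc _) hp)
        ((hsec l).inv γ (c p) (c (a γ p)) p (hc p) (hc _) hp)).symm
    have h2 := hf.pull V hV _ h1 h1' x y hzV hxy
    calc F l i x = F l (c x) x := hind l _ _ _ hi (hc x) hzV
      _ = F l (c y) y := h2
      _ = F l i' y := hind l _ _ _ (hc y) hi' hyV
  set α : ℂ := t i x ^ k * s j0 i x ^ (k' - 1) with hα
  set β : ℂ := t i' y ^ k * s j0 i' y ^ (k' - 1) with hβ
  have hab : ∀ l, α * s l i x = β * s l i' y := by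
    intro l
    have := hconst l
    simp only [hF] at this
    rw [hα, hβ, mul_assoc, mul_assoc]
    exact this
  have ha0 : α ≠ 0 := mul_ne_zero (pow_ne_zero _ (htx i hi)) (pow_ne_zero _ hj0)
  have hb0 : β ≠ 0 := by
    intro h0
    have h := hab j0
    rw [h0, zero_mul] at h
    exact mul_ne_zero ha0 hj0 h
  refine hsep i i' x y hi hi' hzV hxy fun j l => ?_
  have h1 := hab j
  have h2 := hab l
  have h3 : (α * β) * (s j i x * s l i' y) = (α * β) * (s l i x * s j i' y) := by
    calc (α * β) * (s j i x * s l i' y) = (α * s j i x) * (β * s l i' y) := by ring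
      _ = (β * s j i' y) * (α * s l i x) := by rw [h1, h2]
      _ = _ := by ring
  exact mul_left_cancel₀ (mul_ne_zero ha0 hb0) h3

theorem noFlip_of_eqSemiample [CompactSpace X] {L : Bd X} (hL : IsLB n L)
    (hs : EqSemiample n L) : NoFlip n L := by
  intro G _ _ a t ha ht Z _ _ f hf hneg
  refine ⟨IsClosedMap.isQuotientMap hf.continuous.isClosedMap hf.continuous hf.surjective,
    fun x y => ⟨fun h => orbit_of_eqSemiample hL hs ha ht hf hneg h, ?_⟩⟩
  rintro ⟨γ, rfl⟩
  exact (hf.inv γ x).symm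

end

end Vale.Agent.P277.R2.H339
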