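import Vale.Agent.P277.R2.H339.NoFlip
import Vale.Agent.P277.R2.H339.Defs3

/-!
# P277: no flips, twisted by a line bundle pulled back from the base

`f : X → Z` is a contraction and `A` is a line bundle on `X` which is trivial over the preimages of
small open subsets of `Z` (it is pulled back from `Z`). If `D + A` is semiample, then `-D` is ample
on the fibres of `f` only if `f` is injective. Here `D` itself need not be semiample, nor
pseudo-effective: only its restriction to the fibres of `f` matters. Helper file (see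
`notes/helper339/P277.md`).
-/

open scoped Manifold ContDiff
open Filter Topology

noncomputable section

namespace Vale.Agent.P277.R2.H339

open Vale.Agent.P272.K Vale.Agent.P285.H281.FD

section
variable {X Z : Type} [TopologicalSpace X] [TopologicalSpace Z] {n : ℕ} [ChartedSpace (Cm n) X]

/-- If `D` is generated by its sections over the preimages of small open subsets of `Z`, there is no
`D`-negative contraction `X → Z` except injective ones. -/
theorem eq_of_locGen {D : Bd X} (hD : IsLB n D) {f : X → Z}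
    (hgen : ∀ x, ∃ V : Set Z, IsOpen V ∧ f x ∈ V ∧ ∃ k : ℕ, 1 ≤ k ∧ ∃ t : D.ι → X → ℂ,
      SecOn n D k (f ⁻¹' V) t ∧ ∀ i, x ∈ D.U i → t i x ≠ 0)
    (hf : IsContraction n (triv X) f) (hneg : NegativeOn n (triv X) D (trivLift D) f)
    {x y : X} (hxy : f x = f y) : y = x := by
  obtain ⟨V₁, hV₁, hzV₁, k, hk, N, s, hsec, hnz, hsep⟩ := hneg (f x)
  obtain ⟨V₂, hV₂, hzV₂, k', hk', t, ht, htx⟩ := hgen x
  set V : Set Z := V₁ ∩ V₂ with hVdef
  have hV : IsOpen V := hV₁.inter hV₂
  have hzV : f x ∈ V := ⟨hzV₁, hzV₂⟩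
  obtain ⟨i, hi⟩ := hD.cover x
  obtain ⟨i', hi'⟩ := hD.cover y
  obtain ⟨j0, hj0⟩ := hnz i x hi hzV₁
  choose c hc using hD.cover
  set F : Fin (N + 1) → D.ι → X → ℂ := fun l i p =>
    t i p ^ k * (s j0 i p ^ (k' - 1) * s l i p) with hF
  have hyV : f y ∈ V := by rw [← hxy]; exact hzV
  have hcomp : ∀ (g t1 t2 u1 u2 v1 v2 : ℂ), g ≠ 0 → t1 = g ^ k' * t2 → u1 = (g ^ k)⁻¹ * u2 →
      v1 = (g ^ k)⁻¹ * v2 → t1 ^ k * (u1 ^ (k' - 1) * v1) = t2 ^ k * (u2 ^ (k' - 1) * v2) := by
    intro g t1 t2 u1 u2 v1 v2 hg e1 e2 e3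
    have hg' : (g ^ k') ^ k * (((g ^ k)⁻¹) ^ (k' - 1) * (g ^ k)⁻¹) = 1 := by
      rw [← pow_succ, Nat.sub_add_cancel hk', inv_pow, ← pow_mul, ← pow_mul, mul_comm k k']
      exact mul_inv_cancel₀ (pow_ne_zero _ hg)
    rw [e1, e2, e3, mul_pow, mul_pow]
    calc (g ^ k') ^ k * t2 ^ k * (((g ^ k)⁻¹) ^ (k' - 1) * u2 ^ (k' - 1) * ((g ^ k)⁻¹ * v2))
        = ((g ^ k') ^ k * (((g ^ k)⁻¹) ^ (k' - 1) * (g ^ k)⁻¹)) *
          (t2 ^ k * (u2 ^ (k' - 1) * v2)) := by ring
      _ = _ := by rw [hg', one_mul]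
  have hind : ∀ l i j p, p ∈ D.U i → p ∈ D.U j → f p ∈ V → F l i p = F l j p :=
    fun l i j p h1 h2 h3 => hcomp (D.g i j p) _ _ _ _ _ _ (hD.ne_zero i j p h1 h2)
      (ht.change i j p h1 h2 h3.2) ((hsec j0).change i j p h1 h2 h3.1)
      ((hsec l).change i j p h1 h2 h3.1)
  have hWo : IsOpen (f ⁻¹' V) := hV.preimage hf.continuous
  have hconst : ∀ l, F l i x = F l i' y := by
    intro l
    have h1 : HolOn n (f ⁻¹' V) fun p => F l (c p) p := by
      intro e p hep hpV
      have hsym : ContinuousAt e.symm (e p) := e.continuousAt_symm (e.map_source hep.2)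
      have hpp : e.symm (e p) = p := e.left_inv hep.2
      have hev : (fun z => F l (c (e.symm z)) (e.symm z)) =ᶠ[𝓝 (e p)]
          fun z => F l (c p) (e.symm z) := by
        have hn : D.U (c p) ∩ f ⁻¹' V ∈ 𝓝 (e.symm (e p)) := by
          rw [hpp]
          exact ((hD.isOpen _).inter hWo).mem_nhds ⟨hc p, hpV⟩
        filter_upwards [hsym hn] with z hz
        exact hind l _ _ _ (hc _) hz.1 hz.2
      refine ContDiffAt.congr_of_eventuallyEq ?_ hev
      have a1 := ht.holo (c p) e p hep (hc p) hpV.2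
      have a2 := (hsec j0).holo (c p) e p hep (hc p) hpV.1
      have a3 := (hsec l).holo (c p) e p hep (hc p) hpV.1
      exact (a1.pow k).mul ((a2.pow (k' - 1)).mul a3)
    have h2 := hf.pull V hV _ h1 (fun _ _ _ => rfl) x y hzV hxy
    calc F l i x = F l (c x) x := hind l _ _ _ hi (hc x) hzV
      _ = F l (c y) y := h2
      _ = F l i' y := hind l _ _ _ (hc y) hi' hyV
  set α : ℂ := t i x ^ k * s j0 i x ^ (k' - 1) with hα
  set β : ℂ := t i' y ^ k * s j0 i' y ^ (k' - 1) with hβ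
  have hab : ∀ l, α * s l i x = β * s l i' y := by
    intro l
    have := hconst l
    simp only [hF] at this
    rw [hα, hβ, mul_assoc, mul_assoc]
    exact this
  have ha0 : α ≠ 0 := mul_ne_zero (pow_ne_zero _ (htx i hi)) (pow_ne_zero _ hj0)
  have hb0 : β ≠ 0 := by
    intro h0
    have h := hab j0
    rw [h0, zero_mul] at h
    exact mul_ne_zero ha0 hj0 h
  obtain ⟨_, hγ⟩ := hsep i i' x y hi hi' hzV₁ hxy fun j l => by
    have h1 := hab j
    have h2 := hab l
    have h3 : (α * β) * (s j i x * s l i' y) = (α * β) * (s l i x * s j i' y) := by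
      calc (α * β) * (s j i x * s l i' y) = (α * s j i x) * (β * s l i' y) := by ring
        _ = (β * s j i' y) * (α * s l i x) := by rw [h1, h2]
        _ = _ := by ring
    exact mul_left_cancel₀ (mul_ne_zero ha0 hb0) h3
  exact hγ

/-- **No flips, twisted**: if `A` is pulled back from `Z` and `D + A` is semiample, a `D`-negative
contraction `X → Z` is injective. -/
theorem eq_of_twist {D A : Bd X} (hD : IsLB n D) (hA : IsLB n A) (hs : Semiample n (D.mul A))
    {f : X → Z} (hAf : PulledBack n A f) (hf : IsContraction n (triv X) f)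
    (hneg : NegativeOn n (triv X) D (trivLift D) f) {x y : X} (hxy : f x = f y) : y = x := by
  refine eq_of_locGen hD (fun p => ?_) hf hneg hxy
  obtain ⟨V, hV, hpV, τ, hτ, hτ0⟩ := hAf (f p)
  obtain ⟨k, hk, hgen⟩ := hs
  obtain ⟨t, ht, htp⟩ := hgen p
  choose c hc using hA.cover
  have hWo : IsOpen (f ⁻¹' V) := hV.preimage hf.continuous
  -- independence of the frame of `A`
  have hind : ∀ (i : D.ι) (j j' : A.ι) q, q ∈ D.U i → q ∈ A.U j → q ∈ A.U j' → f q ∈ V →
      t (i, j) q / τ j q ^ k = t (i, j') q / τ j' q ^ k := by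
    intro i j j' q h1 h2 h3 h4
    have e1 : t (i, j) q = (D.g i i q * A.g j j' q) ^ k * t (i, j') q :=
      ht.change (i, j) (i, j') q ⟨h1, h2⟩ ⟨h1, h3⟩
    have e2 : D.g i i q = 1 := by
      have := hD.cocycle i i i q h1 h1 h1
      have h5 := hD.ne_zero i i q h1 h1
      exact mul_left_cancel₀ h5 (by rw [this, mul_one])
    have e3 := hτ.change j j' q h2 h3 h4
    rw [pow_one] at e3
    have e4 := hA.ne_zero j j' q h2 h3
    have e5 := hτ0 j' q h3 h4
    rw [e1, e2, one_mul, e3, mul_pow, mul_div_mul_left _ _ (pow_ne_zero k e4)]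
  refine ⟨V, hV, hpV, k, hk, fun i q => t (i, c q) q / τ (c q) q ^ k, ⟨?_, ?_⟩, ?_⟩
  · intro i e q hep hi hqV
    have hsym : ContinuousAt e.symm (e q) := e.continuousAt_symm (e.map_source hep.2)
    have hqq : e.symm (e q) = q := e.left_inv hep.2
    have hev : (fun z => t (i, c (e.symm z)) (e.symm z) / τ (c (e.symm z)) (e.symm z) ^ k)
        =ᶠ[𝓝 (e q)] fun z => t (i, c q) (e.symm z) / τ (c q) (e.symm z) ^ k := by
      have hn : (D.U i ∩ A.U (c q)) ∩ f ⁻¹' V ∈ 𝓝 (e.symm (e q)) := by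
        rw [hqq]
        exact (((hD.isOpen _).inter (hA.isOpen _)).inter hWo).mem_nhds ⟨⟨hi, hc q⟩, hqV⟩
      filter_upwards [hsym hn] with z hz
      exact hind i _ _ _ hz.1.1 (hc _) hz.1.2 hz.2
    refine ContDiffAt.congr_of_eventuallyEq ?_ hev
    have a1 := ht.holo (i, c q) e q hep ⟨hi, hc q⟩
    have a2 := hτ.holo (c q) e q hep (hc q) hqV
    refine a1.div (a2.pow k) ?_
    rw [hqq]
    exact pow_ne_zero _ (hτ0 _ _ (hc q) hqV)
  · intro i j q h1 h2 h3
    have e1 : t (i, c q) q = (D.g i j q * A.g (c q) (c q) q) ^ k * t (j, c q) q :=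
      ht.change (i, c q) (j, c q) q ⟨h1, hc q⟩ ⟨h2, hc q⟩
    have e2 : A.g (c q) (c q) q = 1 := by
      have := hA.cocycle (c q) (c q) (c q) q (hc q) (hc q) (hc q)
      have h5 := hA.ne_zero (c q) (c q) q (hc q) (hc q)
      exact mul_left_cancel₀ h5 (by rw [this, mul_one])
    rw [e1, e2, mul_one, mul_div_assoc]
  · intro i hi
    exact div_ne_zero (htp (i, c p) ⟨hi, hc p⟩) (pow_ne_zero _ (hτ0 _ _ (hc p) hpV))

end

end Vale.Agent.P277.R2.H339
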